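import Vale.Agent.P181.T6.Spec
import Vale.Agent.P181.T4.Big
import Vale.Agent.P181.H536.HW

set_option autoImplicit false

/-!
# P181, T7: the last steps

`FStmt` (the main theorem) and the known results for few boxes below the second row give Foulkes'
inequality for all partitions when `b ≥ a ^ (3 / 2 + ε)`.
-/

namespace Vale.Agent.P181.T7

open Vale.Agent.P181.T4 Vale.Agent.P181.H280

/-- the number of cells in the rows `≥ j` -/
noncomputable def below {a : ℕ} (j : ℕ) (lam : Fin a → ℕ) : ℕ := ∑ i ∈ Finset.Ico j a, ex lam i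

/-- **(F)** the main theorem. -/
def FStmt : Prop := ∀ ε : ℝ, 0 < ε → ∀ᶠ a : ℕ in Filter.atTop, ∀ b : ℕ, (a : ℝ) ^ (1 + ε) ≤ b →
  ∀ lam : Fin a → ℕ, Antitone lam → ∑ i, lam i = a * b → (a : ℝ) ^ (3 / 2 + ε) ≤ below 2 lam →
    plethMult a b a lam ≤ plethMult b a a lam

/-- Adding zero rows does not change the multiplicity. -/
def PadStmt : Prop := ∀ (a b n k : ℕ) (lam : Fin n → ℕ),
  plethMult a b (n + k) (fun i => if h : (i : ℕ) < n then lam ⟨i, h⟩ else 0) = plethMult a b n lam

/-- Which weights can occur. -/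
def ZeroStmt : Prop := ∀ (a b n : ℕ) (lam : Fin n → ℕ), plethMult a b n lam ≠ 0 →
  Antitone lam ∧ ∑ i, lam i = a * b ∧ ∀ i : Fin n, a ≤ (i : ℕ) → lam i = 0

/-- All numbers of rows from the case of `a` rows. -/
theorem all_n (hP : PadStmt) (hZ : ZeroStmt) {a b : ℕ}
    (h : ∀ lam : Fin a → ℕ, Antitone lam → ∑ i, lam i = a * b →
      plethMult a b a lam ≤ plethMult b a a lam) (n : ℕ) (lam : Fin n → ℕ) :
    plethMult a b n lam ≤ plethMult b a n lam := by
  by_cases h0 : plethMult a b n lam = 0
  · rw [h0]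
    exact Nat.zero_le _
  · obtain ⟨hanti, hsum, hz⟩ := hZ a b n lam h0
    rcases Nat.le_total n a with hna | hna
    · obtain ⟨k, rfl⟩ := Nat.exists_eq_add_of_le hna
      rw [← hP (n + k) b n k lam, ← hP b (n + k) n k lam]
      apply h
      · intro i j hij
        have hij' : (i : ℕ) ≤ j := hij
        dsimp only
        split_ifs with h1 h2 h2
        · exact hanti (show (⟨i, h2⟩ : Fin n) ≤ ⟨j, h1⟩ from hij')
        · omega
        · exact Nat.zero_le _
        · exact le_rfl
      · rw [Fin.sum_univ_add]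
        have h1 : ∑ i : Fin n, (if h : ((Fin.castAdd k i : Fin (n + k)) : ℕ) < n then
            lam ⟨(Fin.castAdd k i : Fin (n + k)), h⟩ else 0) = ∑ i, lam i := by
          apply Finset.sum_congr rfl
          intro i _
          rw [dif_pos (by simp)]
          congr 1
        have h2 : ∑ i : Fin k, (if h : ((Fin.natAdd n i : Fin (n + k)) : ℕ) < n then
            lam ⟨(Fin.natAdd n i : Fin (n + k)), h⟩ else 0) = 0 := by
          apply Finset.sum_eq_zero
          intro i _
          rw [dif_neg (by simp)]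
        rw [h1, h2, add_zero, hsum]
    · obtain ⟨k, rfl⟩ := Nat.exists_eq_add_of_le hna
      set mu : Fin a → ℕ := fun i => lam (Fin.castAdd k i) with hmu
      have hlam : lam = fun i : Fin (a + k) => if h : (i : ℕ) < a then mu ⟨i, h⟩ else 0 := by
        funext i
        by_cases hi : (i : ℕ) < a
        · rw [dif_pos hi, hmu]
          congr 1
        · rw [dif_neg hi]
          exact hz i (by omega)
      rw [hlam, hP a b a k mu, hP b a a k mu]
      apply h
      · intro i j hij
        have hij' : (i : ℕ) ≤ j := hij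
        exact hanti (show Fin.castAdd k i ≤ Fin.castAdd k j from hij')
      · rw [← hsum, Fin.sum_univ_add]
        have h2 : ∑ i : Fin k, lam (Fin.natAdd a i) = 0 := by
          apply Finset.sum_eq_zero
          intro i _
          exact hz _ (by simp)
        rw [h2, add_zero]

/-- Few boxes below the second row. -/
theorem few {a b : ℕ} (ha : 2 ≤ a) (lam : Fin a → ℕ) (h : below 2 lam + a ≤ b + 1) :
    plethMult a b a lam ≤ plethMult b a a lam := by
  obtain ⟨n, rfl⟩ := Nat.exists_eq_add_of_le' ha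
  have h1 : below 2 lam = ∑ i : Fin n, lam i.succ.succ := by
    unfold below
    rw [Finset.sum_Ico_eq_sum_range, Nat.add_sub_cancel, Finset.sum_range]
    apply Finset.sum_congr rfl
    intro i _
    rw [ex, dif_pos (by omega)]
    congr 1
    ext
    simp
    omega
  exact H536.plethMult_le (N := n + 2 - 1) (by omega) (by omega) lam (by omega)

/-- **Foulkes' inequality for all partitions when `b ≥ a ^ (3 / 2 + ε)`.** -/
theorem final (hF : FStmt) (ε : ℝ) (hε : 0 < ε) : ∀ᶠ a : ℕ in Filter.atTop, ∀ b : ℕ,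
    (a : ℝ) ^ (3 / 2 + ε) ≤ b → ∀ lam : Fin a → ℕ, Antitone lam → ∑ i, lam i = a * b →
      plethMult a b a lam ≤ plethMult b a a lam := by
  have hlim : ∀ᶠ a : ℕ in Filter.atTop, (2 : ℝ) ≤ (a : ℝ) ^ (ε / 2) := by
    have h1 : Filter.Tendsto (fun a : ℕ => (a : ℝ) ^ (ε / 2)) Filter.atTop Filter.atTop :=
      (tendsto_rpow_atTop (by positivity)).comp tendsto_natCast_atTop_atTop
    exact h1.eventually_ge_atTop 2
  filter_upwards [hF (ε / 2) (by positivity), hlim, Filter.eventually_ge_atTop 2] with a hFa h2 ha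
    b hb lam hlam hsum
  have ha1 : (1 : ℝ) ≤ a := by exact_mod_cast (by omega : 1 ≤ a)
  have ha0 : (0 : ℝ) < a := by linarith
  by_cases hD : (a : ℝ) ^ (3 / 2 + ε / 2) ≤ below 2 lam
  · apply hFa b _ lam hlam hsum hD
    refine le_trans ?_ hb
    exact Real.rpow_le_rpow_of_exponent_le ha1 (by linarith)
  · push Not at hD
    apply few ha lam
    have h3 : (a : ℝ) ^ (3 / 2 + ε) = (a : ℝ) ^ (3 / 2 + ε / 2) * (a : ℝ) ^ (ε / 2) := by
      rw [← Real.rpow_add ha0]
      congr 1
      ring
    have h4 : (a : ℝ) ≤ (a : ℝ) ^ (3 / 2 + ε / 2) := by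
      conv_lhs => rw [← Real.rpow_one (a : ℝ)]
      exact Real.rpow_le_rpow_of_exponent_le ha1 (by linarith)
    have h5 : 2 * (a : ℝ) ^ (3 / 2 + ε / 2) ≤ b := by
      rw [h3] at hb
      have h6 : 0 < (a : ℝ) ^ (3 / 2 + ε / 2) := by positivity
      nlinarith
    have h7 : ((below 2 lam + a : ℕ) : ℝ) ≤ ((b + 1 : ℕ) : ℝ) := by
      push_cast
      linarith
    exact_mod_cast h7

end Vale.Agent.P181.T7
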