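import Vale.Agent.P181.T7.Last

set_option autoImplicit false

/-!
# P181: all numbers of rows, with conditions on the numbers of cells in the rows `≥ j`
-/

namespace Vale.Agent.P181.T7

open Vale.Agent.P181.T4 Vale.Agent.P181.H280

/-- The number of cells in the rows with (0-based) index at least `j`. -/
def cells {n : ℕ} (j : ℕ) (lam : Fin n → ℕ) : ℕ := ∑ i : Fin n, if j ≤ (i : ℕ) then lam i else 0

lemma below_cells {a : ℕ} (j : ℕ) (lam : Fin a → ℕ) : below j lam = cells j lam := by
  unfold below cells
  have h1 : ∑ i : Fin a, (if j ≤ (i : ℕ) then lam i else 0) =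
      ∑ i ∈ Finset.range a, (if j ≤ i then ex lam i else 0) := by
    rw [Finset.sum_range]
    apply Finset.sum_congr rfl
    intro i _
    rw [ex_of_lt lam i.2]
  rw [h1, ← Finset.sum_filter]
  apply Finset.sum_congr _ (fun _ _ => rfl)
  ext i
  simp only [Finset.mem_Ico, Finset.mem_filter, Finset.mem_range]
  tauto

lemma cells_pad {n k : ℕ} (j : ℕ) (lam : Fin n → ℕ) :
    cells j (fun i : Fin (n + k) => if h : (i : ℕ) < n then lam ⟨i, h⟩ else 0) = cells j lam := by
  unfold cells
  rw [Fin.sum_univ_add]
  have h1 : ∑ i : Fin n, (if j ≤ ((Fin.castAdd k i : Fin (n + k)) : ℕ) then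
      (if h : ((Fin.castAdd k i : Fin (n + k)) : ℕ) < n then
        lam ⟨(Fin.castAdd k i : Fin (n + k)), h⟩ else 0) else 0) =
      ∑ i : Fin n, if j ≤ (i : ℕ) then lam i else 0 := by
    apply Finset.sum_congr rfl
    intro i _
    rw [dif_pos (by simp)]
    rfl
  have h2 : ∑ i : Fin k, (if j ≤ ((Fin.natAdd n i : Fin (n + k)) : ℕ) then
      (if h : ((Fin.natAdd n i : Fin (n + k)) : ℕ) < n then
        lam ⟨(Fin.natAdd n i : Fin (n + k)), h⟩ else 0) else 0) = 0 := by
    apply Finset.sum_eq_zero
    intro i _
    rw [dif_neg (by simp)]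
    simp
  rw [h1, h2, add_zero]

/-- All numbers of rows from the case of `a` rows, with a condition on the numbers of cells below
the rows. -/
theorem all_n_cells (hP : PadStmt) (hZ : ZeroStmt) {a b : ℕ} (Q : (ℕ → ℕ) → Prop)
    (h : ∀ lam : Fin a → ℕ, Antitone lam → ∑ i, lam i = a * b → Q (fun j => below j lam) →
      plethMult a b a lam ≤ plethMult b a a lam) (n : ℕ) (lam : Fin n → ℕ)
    (hQ : Q (fun j => cells j lam)) :
    plethMult a b n lam ≤ plethMult b a n lam := by
  by_cases h0 : plethMult a b n lam = 0
  · rw [h0]
    exact Nat.zero_le _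
  · obtain ⟨hanti, hsum, hz⟩ := hZ a b n lam h0
    rcases Nat.le_total n a with hna | hna
    · obtain ⟨k, rfl⟩ := Nat.exists_eq_add_of_le hna
      rw [← hP (n + k) b n k lam, ← hP b (n + k) n k lam]
      apply h
      · intro i j hij
        have hij' : (i : ℕ) ≤ j := hij
        dsimp only
        split_ifs with h1 h2 h2
        · exact hanti (show (⟨i, h2⟩ : Fin n) ≤ ⟨j, h1⟩ from hij')
        · omega
        · exact Nat.zero_le _
        · exact le_rfl
      · rw [Fin.sum_univ_add]
        have h1 : ∑ i : Fin n, (if h : ((Fin.castAdd k i : Fin (n + k)) : ℕ) < n then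
            lam ⟨(Fin.castAdd k i : Fin (n + k)), h⟩ else 0) = ∑ i, lam i := by
          apply Finset.sum_congr rfl
          intro i _
          rw [dif_pos (by simp)]
          congr 1
        have h2 : ∑ i : Fin k, (if h : ((Fin.natAdd n i : Fin (n + k)) : ℕ) < n then
            lam ⟨(Fin.natAdd n i : Fin (n + k)), h⟩ else 0) = 0 := by
          apply Finset.sum_eq_zero
          intro i _
          rw [dif_neg (by simp)]
        rw [h1, h2, add_zero, hsum]
      · have h3 : (fun j => below j (fun i : Fin (n + k) => if h : (i : ℕ) < n then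
            lam ⟨i, h⟩ else 0)) = fun j => cells j lam := by
          funext j
          rw [below_cells, cells_pad]
        rw [h3]
        exact hQ
    · obtain ⟨k, rfl⟩ := Nat.exists_eq_add_of_le hna
      set mu : Fin a → ℕ := fun i => lam (Fin.castAdd k i) with hmu
      have hlam : lam = fun i : Fin (a + k) => if h : (i : ℕ) < a then mu ⟨i, h⟩ else 0 := by
        funext i
        by_cases hi : (i : ℕ) < a
        · rw [dif_pos hi, hmu]
          congr 1
        · rw [dif_neg hi]
          exact hz i (by omega)
      have hQ' : Q (fun j => below j mu) := by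
        have h3 : (fun j => below j mu) = fun j => cells j lam := by
          funext j
          rw [below_cells, ← cells_pad (k := k) j mu, ← hlam]
        rw [h3]
        exact hQ
      rw [hlam, hP a b a k mu, hP b a a k mu]
      apply h
      · intro i j hij
        have hij' : (i : ℕ) ≤ j := hij
        exact hanti (show Fin.castAdd k i ≤ Fin.castAdd k j from hij')
      · rw [← hsum, Fin.sum_univ_add]
        have h2 : ∑ i : Fin k, lam (Fin.natAdd a i) = 0 := by
          apply Finset.sum_eq_zero
          intro i _
          exact hz _ (by simp)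
        rw [h2, add_zero]
      · exact hQ'

end Vale.Agent.P181.T7
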