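import Vale.Agent.P181.T7.Cells
import Vale.Agent.P181.H530.Pad
import Vale.Agent.P181.H530.Zero
import Vale.Agent.P181.H463.Big

set_option autoImplicit false

/-!
# P181: from `a` large to a constant, and from `a` rows to all numbers of rows
-/

namespace Vale.Agent.P181.T7

open Vale.Agent.P181.T4 Vale.Agent.P181.H280

/-- The passage from large `a` (and `a` rows) to all `a` (and all numbers of rows). -/
theorem const_of_eventually {ε : ℝ} (hε : 0 < ε) {x y : ℝ} (hx : 0 ≤ x) {j : ℕ}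
    (h : ∀ᶠ a : ℕ in Filter.atTop, ∀ b : ℕ, (a : ℝ) ^ x ≤ b → ∀ lam : Fin a → ℕ, Antitone lam →
      ∑ i, lam i = a * b → (a : ℝ) ^ y ≤ below j lam →
      plethMult a b a lam ≤ plethMult b a a lam) :
    ∃ C : ℝ, 1 ≤ C ∧ ∀ (a b n : ℕ) (lam : Fin n → ℕ), C * (a : ℝ) ^ x ≤ b →
      C * (a : ℝ) ^ y ≤ cells j lam → plethMult a b n lam ≤ plethMult b a n lam := by
  obtain ⟨a₀, h0⟩ := Filter.eventually_atTop.1 h
  refine ⟨(a₀ : ℝ) ^ 2 + 1, by nlinarith [sq_nonneg (a₀ : ℝ)], fun a b n lam hb hD => ?_⟩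
  have hC : (1 : ℝ) ≤ (a₀ : ℝ) ^ 2 + 1 := by nlinarith [sq_nonneg (a₀ : ℝ)]
  rcases Nat.lt_or_ge a a₀ with ha | ha
  · apply H463.big_stmt
    rcases Nat.eq_zero_or_pos a with ha0 | ha0
    · subst ha0
      simp
    · have h1 : (1 : ℝ) ≤ (a : ℝ) ^ x := Real.one_le_rpow (by exact_mod_cast ha0) hx
      have h2 : (a₀ : ℝ) ^ 2 ≤ b := by nlinarith [sq_nonneg (a₀ : ℝ)]
      have h3 : a₀ ^ 2 ≤ b := by exact_mod_cast h2
      exact (Nat.pow_le_pow_left (by omega) 2).trans h3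
  · have hb' : (a : ℝ) ^ x ≤ b := by
      have h1 : (0 : ℝ) ≤ (a : ℝ) ^ x := by positivity
      nlinarith
    refine all_n_cells H530.pad_stmt H530.zero_stmt (fun f => (a : ℝ) ^ y ≤ (f j : ℝ))
      (fun mu hmu hsum hQ => h0 a ha b hb' mu hmu hsum hQ) n lam ?_
    have h1 : (0 : ℝ) ≤ (a : ℝ) ^ y := by positivity
    have h2 : (a : ℝ) ^ y ≤ ((a₀ : ℝ) ^ 2 + 1) * (a : ℝ) ^ y := by nlinarith
    exact h2.trans hD

end Vale.Agent.P181.T7
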