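import Vale.Agent.P181.T7.Last

set_option autoImplicit false

/-!
# P181, T7: the frozen statements (semigroup reduction of helper502) and the last assembly

Rows are 0-indexed; `ex lam (j - 1) - ex lam j` is the number of columns of length exactly `j`.
The reduction (DEC) is proved in `H502/Dec.lean`.
-/

namespace Vale.Agent.P181.T7

open Vale.Agent.P181.T4 Vale.Agent.P181.H280 Vale.Agent.P181.H463

/-- **(LB7)** (owner 310) the types of the columns of length exactly `r`. -/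
def LB7 : Prop := ∀ (a k B n r N top : ℕ) (mu : Fin n → ℕ), Antitone mu → ∑ i, mu i = k * B →
  n ≤ a → a ≤ N → 3 ≤ r → r ≤ n → 8 * r * (r + 5) ≤ k → 16 * r ^ 3 ≤ N →
  ex mu r + 4 * N * k ≤ ex mu (r - 1) → ex mu 0 ≤ 2 * (ex mu (r - 1) - ex mu r) →
  2 * ∑ i, low r mu i ≤ N * k → 10 ^ 7 * r ^ 2 * N ≤ k ^ 2 →
  (top : ℝ) * ((k : ℝ) + 1) ^ a ≤ Real.exp N →
  top * gt (n - r) a (low r mu) ≤ plethMult B k n mu

/-- **(CutRev)** (owner 463) -/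
def CutRev : Prop := ∀ (a n R : ℕ) (lam : Fin n → ℕ), R ≤ n → n ≤ a → Antitone lam →
  gt (n - R) a (low R lam) ≤ (ex lam 0 + 1) ^ (a * R) * gt n a lam

/-- **(Case I)** (owner 699): the lower part is bulk. -/
def CaseI : Prop := ∀ δ : ℝ, 0 < δ → δ ≤ 1 / 100 → ∀ᶠ a : ℕ in Filter.atTop, ∀ (b R : ℕ)
  (lam : Fin a → ℕ), b ≤ a ^ 2 → (a : ℝ) ^ (1 + 9 * δ) ≤ b → Antitone lam →
  ∑ i, lam i = a * b → (R : ℝ) ≤ (a : ℝ) ^ (2 * δ) → (a : ℝ) ^ (3 / 2 + 6 * δ) ≤ below R lam →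
  (a : ℝ) ^ δ * ex lam R ≤ below R lam → plethMult a b a lam ≤ plethMult b a a lam

/-- **(Case II)** (owner 503): many columns of one length `r`, few cells below the row `R`. -/
def CaseII : Prop := ∀ δ : ℝ, 0 < δ → δ ≤ 1 / 100 → ∀ᶠ a : ℕ in Filter.atTop, ∀ (b R r : ℕ)
  (lam : Fin a → ℕ), b ≤ a ^ 2 → (a : ℝ) ^ (1 + 9 * δ) ≤ b → Antitone lam →
  ∑ i, lam i = a * b → (R : ℝ) ≤ (a : ℝ) ^ (2 * δ) → (below R lam : ℝ) < (a : ℝ) ^ (3 / 2 + 6 * δ) →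
  3 ≤ r → r ≤ R → (ex lam r : ℝ) + (a : ℝ) ^ (3 / 2 + 16 * δ) ≤ ex lam (r - 1) →
  plethMult a b a lam ≤ plethMult b a a lam

/-- **(Split)** (owner 328) -/
def SplitStmt : Prop := ∀ δ : ℝ, 0 < δ → δ ≤ 1 / 100 → ∀ᶠ a : ℕ in Filter.atTop, ∀ (b : ℕ)
  (lam : Fin a → ℕ), b ≤ a ^ 2 → Antitone lam → ∑ i, lam i = a * b →
  (a : ℝ) ^ (3 / 2 + 20 * δ) ≤ below 2 lam →
  (∃ R : ℕ, (R : ℝ) ≤ (a : ℝ) ^ (2 * δ) ∧ (a : ℝ) ^ (3 / 2 + 6 * δ) ≤ below R lam ∧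
    (a : ℝ) ^ δ * ex lam R ≤ below R lam) ∨
  (∃ R r : ℕ, (R : ℝ) ≤ (a : ℝ) ^ (2 * δ) ∧ (below R lam : ℝ) < (a : ℝ) ^ (3 / 2 + 6 * δ) ∧
    3 ≤ r ∧ r ≤ R ∧ (ex lam r : ℝ) + (a : ℝ) ^ (3 / 2 + 16 * δ) ≤ ex lam (r - 1))

theorem below_eq {a R : ℕ} (hR : R ≤ a) (lam : Fin a → ℕ) :
    below R lam = ∑ i, low R lam i := by
  unfold below
  rw [Finset.sum_Ico_eq_sum_range, Finset.sum_range]
  rfl

/-- **(F)** from the cases. -/
theorem fStmt_of (h1 : CaseI) (h2 : CaseII) (hs : SplitStmt) (hB : BigStmt) : FStmt := by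
  intro ε hε
  set δ : ℝ := min (ε / 20) (1 / 100) with hδ
  have hδ0 : 0 < δ := lt_min (by positivity) (by norm_num)
  have hδ1 : δ ≤ 1 / 100 := min_le_right _ _
  have hδ2 : 20 * δ ≤ ε := by
    have := min_le_left (ε / 20) (1 / 100)
    rw [← hδ] at this
    linarith
  filter_upwards [h1 δ hδ0 hδ1, h2 δ hδ0 hδ1, hs δ hδ0 hδ1, Filter.eventually_ge_atTop 1]
    with a h1a h2a hsa ha b hb lam hlam hsum hD
  have ha1 : (1 : ℝ) ≤ a := by exact_mod_cast ha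
  by_cases hb2 : b ≤ a ^ 2
  · have hb' : (a : ℝ) ^ (1 + 9 * δ) ≤ b :=
      le_trans (Real.rpow_le_rpow_of_exponent_le ha1 (by linarith)) hb
    have hD' : (a : ℝ) ^ (3 / 2 + 20 * δ) ≤ below 2 lam :=
      le_trans (Real.rpow_le_rpow_of_exponent_le ha1 (by linarith)) hD
    rcases hsa b lam hb2 hlam hsum hD' with ⟨R, e1, e2, e3⟩ | ⟨R, r, e1, e2, e3, e4, e5⟩
    · exact h1a b R lam hb2 hb' hlam hsum e1 e2 e3
    · exact h2a b R r lam hb2 hb' hlam hsum e1 e2 e3 e4 e5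
  · apply hB
    have h5 : (a - 1) ^ 2 ≤ a ^ 2 := Nat.pow_le_pow_left (Nat.sub_le a 1) 2
    omega

end Vale.Agent.P181.T7
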