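import Vale.Agent.P181.T7.Last

set_option autoImplicit false

/-!
# P181, T7: the case split and the assembly of the main theorem
-/

namespace Vale.Agent.P181.T7

open Vale.Agent.P181.T4 Vale.Agent.P181.H280 Filter

/-- **Case I**: after some row `R` the rows are small against the number of the remaining cells. -/
def Case1Stmt : Prop := ∀ δ : ℝ, 0 < δ → δ ≤ 1 / 100 → ∀ᶠ a : ℕ in atTop, ∀ b : ℕ,
  (a : ℝ) ^ (1 + 9 * δ) ≤ b → b ≤ a ^ 2 → ∀ lam : Fin a → ℕ, Antitone lam →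
    ∑ i, lam i = a * b → ∀ R : ℕ, R ≤ a → (R : ℝ) ≤ (a : ℝ) ^ (2 * δ) →
    (a : ℝ) ^ (3 / 2 + 6 * δ) ≤ ((∑ i, low R lam i : ℕ) : ℝ) →
    (ex lam R : ℝ) ≤ (a : ℝ) ^ (-δ) * ((∑ i, low R lam i : ℕ) : ℝ) →
    plethMult a b a lam ≤ plethMult b a a lam

/-- **Case II**: few cells below the row `R1`, and many columns of one length `r ≥ 3`. -/
def Case2Stmt : Prop := ∀ δ : ℝ, 0 < δ → δ ≤ 1 / 100 → ∀ᶠ a : ℕ in atTop, ∀ b : ℕ,
  (a : ℝ) ^ (1 + 9 * δ) ≤ b → b ≤ a ^ 2 → ∀ lam : Fin a → ℕ, Antitone lam →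
    ∑ i, lam i = a * b → ∀ R1 r : ℕ, R1 ≤ a → (R1 : ℝ) ≤ (a : ℝ) ^ (2 * δ) → 3 ≤ r → r ≤ R1 →
    ((∑ i, low R1 lam i : ℕ) : ℝ) < (a : ℝ) ^ (3 / 2 + 6 * δ) →
    (a : ℝ) ^ (3 / 2 + 16 * δ) ≤ ((ex lam (r - 1) - ex lam r : ℕ) : ℝ) →
    plethMult a b a lam ≤ plethMult b a a lam

lemma below_eq_low {a R : ℕ} (lam : Fin a → ℕ) : below R lam = ∑ i, low R lam i := by
  unfold below low
  rw [Finset.sum_Ico_eq_sum_range, Finset.sum_range]

lemma below_succ {a R : ℕ} (lam : Fin a → ℕ) : below R lam = ex lam R + below (R + 1) lam := by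
  unfold below
  rcases Nat.lt_or_ge R a with h | h
  · rw [Finset.sum_eq_sum_Ico_succ_bot h]
  · rw [Finset.Ico_eq_empty (by omega), Finset.Ico_eq_empty (by omega)]
    have : ex lam R = 0 := by rw [ex, dif_neg (by omega)]
    simp [this]

lemma below_zero {a : ℕ} (lam : Fin a → ℕ) : below 0 lam = ∑ i, lam i := by
  unfold below
  rw [Nat.Ico_zero_eq_range, Finset.sum_range]
  exact Finset.sum_congr rfl fun i _ => ex_of_lt lam i.2

lemma below_anti {a : ℕ} (lam : Fin a → ℕ) {i j : ℕ} (h : i ≤ j) : below j lam ≤ below i lam := by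
  induction h with
  | refl => exact le_rfl
  | step h ih =>
    rename_i m
    have := below_succ (R := m) lam
    rw [Nat.succ_eq_add_one]
    omega

lemma ex_le_below {a : ℕ} (lam : Fin a → ℕ) (i : ℕ) : ex lam i ≤ below i lam := by
  have := below_succ (R := i) lam
  omega

lemma sum_gaps {a : ℕ} {lam : Fin a → ℕ} (hlam : Antitone lam) {p q : ℕ} (hpq : p ≤ q) :
    ∑ r ∈ Finset.Ico p q, (ex lam r - ex lam (r + 1)) + ex lam q = ex lam p := by
  induction hpq with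
  | refl => simp
  | step h ih =>
    rename_i m
    rw [Nat.succ_eq_add_one, Finset.sum_Ico_succ_top h]
    have := ex_anti hlam (Nat.le_add_right m 1)
    omega

/-- **The case split** (deterministic form): `X ≥ 1`, at most `B` steps. -/
theorem split_det {a : ℕ} {lam : Fin a → ℕ} (hlam : Antitone lam) {X θ G : ℝ} (hX : 1 < X)
    (B : ℕ) (hB : (1 - 1 / X) ^ B * (below 0 lam : ℝ) < θ) (h2 : θ + G * B ≤ (below 2 lam : ℝ) / X)
    (hθ2 : θ ≤ (below 2 lam : ℝ)) :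
    (∃ R ≤ B, θ ≤ (below R lam : ℝ) ∧ X * (ex lam R : ℝ) ≤ below R lam) ∨
    ∃ R1 r, 3 ≤ r ∧ r ≤ R1 ∧ R1 ≤ B ∧ (below R1 lam : ℝ) < θ ∧
      G ≤ ((ex lam (r - 1) - ex lam r : ℕ) : ℝ) := by
  have hX0 : 0 < X := by linarith
  by_cases hbulk : ∃ R ≤ B, θ ≤ (below R lam : ℝ) ∧ X * (ex lam R : ℝ) ≤ below R lam
  · exact Or.inl hbulk
  right
  push Not at hbulk
  -- the number of cells decreases
  have hdec : ∀ j ≤ B, θ ≤ (below j lam : ℝ) → (below (j + 1) lam : ℝ) ≤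
      (1 - 1 / X) * below j lam := by
    intro j hj hθj
    have h1 := hbulk j hj hθj
    have h3 : (below j lam : ℝ) = ex lam j + below (j + 1) lam := by
      exact_mod_cast below_succ (R := j) lam
    have h4 : (below j lam : ℝ) / X < ex lam j := by
      rw [div_lt_iff₀ hX0]
      linarith
    have h5 : (1 - 1 / X) * (below j lam : ℝ) = below j lam - below j lam / X := by ring
    linarith
  have hex : ∃ j ≤ B, (below j lam : ℝ) < θ := by
    by_contra hcon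
    push Not at hcon
    have hall : ∀ j ≤ B, (below j lam : ℝ) ≤ (1 - 1 / X) ^ j * below 0 lam := by
      intro j
      induction j with
      | zero => intro _; simp
      | succ j ih =>
        intro hj
        have h1 := hdec j (by omega) (hcon j (by omega))
        have h3 := ih (by omega)
        have h4 : 0 ≤ 1 - 1 / X := by
          rw [sub_nonneg, div_le_one hX0]
          exact hX.le
        calc (below (j + 1) lam : ℝ) ≤ (1 - 1 / X) * below j lam := h1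
          _ ≤ (1 - 1 / X) * ((1 - 1 / X) ^ j * below 0 lam) := by gcongr
          _ = _ := by ring
    have := hcon B le_rfl
    linarith [hall B le_rfl]
  classical
  obtain ⟨R1, ⟨hR1B, hR1θ⟩, hmin⟩ : ∃ R1, (R1 ≤ B ∧ (below R1 lam : ℝ) < θ) ∧
      ∀ j < R1, ¬ (j ≤ B ∧ (below j lam : ℝ) < θ) :=
    ⟨Nat.find hex, Nat.find_spec hex, fun j hj => Nat.find_min hex hj⟩
  have hR1 : 3 ≤ R1 := by
    by_contra hlt
    have : below 2 lam ≤ below R1 lam := below_anti lam (by omega)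
    have h3 : (below 2 lam : ℝ) ≤ below R1 lam := by exact_mod_cast this
    linarith
  -- row 2 is large
  have hrow : (below 2 lam : ℝ) / X < ex lam 2 := by
    have h1 := hbulk 2 (by omega) (by linarith)
    rw [div_lt_iff₀ hX0]
    linarith
  -- pigeonhole
  have hpig : ∃ r ∈ Finset.Ico 2 R1, G ≤ ((ex lam r - ex lam (r + 1) : ℕ) : ℝ) := by
    by_contra hcon
    push Not at hcon
    have h1 := sum_gaps hlam (p := 2) (q := R1) (by omega)
    have h3 : (∑ r ∈ Finset.Ico 2 R1, ((ex lam r - ex lam (r + 1) : ℕ) : ℝ)) + ex lam R1 =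
        ex lam 2 := by exact_mod_cast h1
    have hG0 : 0 ≤ G := by
      have h4 := hcon 2 (by rw [Finset.mem_Ico]; omega)
      exact (Nat.cast_nonneg _).trans h4.le
    have h4 : (∑ r ∈ Finset.Ico 2 R1, ((ex lam r - ex lam (r + 1) : ℕ) : ℝ)) ≤ G * B := by
      calc (∑ r ∈ Finset.Ico 2 R1, ((ex lam r - ex lam (r + 1) : ℕ) : ℝ))
          ≤ ∑ _r ∈ Finset.Ico 2 R1, G := Finset.sum_le_sum fun r hr => (hcon r hr).le
        _ = ((R1 - 2 : ℕ) : ℝ) * G := by rw [Finset.sum_const, Nat.card_Ico, nsmul_eq_mul]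
        _ ≤ B * G := by
            apply mul_le_mul_of_nonneg_right _ hG0
            exact_mod_cast (by omega : R1 - 2 ≤ B)
        _ = G * B := mul_comm _ _
    have h5 : (ex lam R1 : ℝ) < θ := by
      have := ex_le_below lam R1
      have h6 : (ex lam R1 : ℝ) ≤ below R1 lam := by exact_mod_cast this
      linarith
    linarith
  obtain ⟨r, hr, hG⟩ := hpig
  rw [Finset.mem_Ico] at hr
  exact ⟨R1, r + 1, by omega, by omega, hR1B, hR1θ, hG⟩

lemma ev_big (δ : ℝ) (hδ : 0 < δ) : ∀ᶠ a : ℕ in atTop,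
    3 * Real.log a + 1 < (a : ℝ) ^ δ := by
  have h1 : (fun x : ℝ => Real.log x) =o[atTop] fun x => x ^ δ := isLittleO_log_rpow_atTop hδ
  have h2 := (h1.bound (show (0 : ℝ) < 1 / 6 by norm_num))
  have h3 : Tendsto (fun a : ℕ => (a : ℝ) ^ δ) atTop atTop :=
    (tendsto_rpow_atTop hδ).comp tendsto_natCast_atTop_atTop
  filter_upwards [tendsto_natCast_atTop_atTop.eventually h2, h3.eventually_gt_atTop 2,
    eventually_ge_atTop 1] with a ha h4 h5
  have ha1 : (1 : ℝ) ≤ a := by exact_mod_cast h5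
  rw [Real.norm_of_nonneg (Real.log_nonneg ha1), Real.norm_of_nonneg (by positivity)] at ha
  linarith

/-- **The case split.** -/
theorem split (δ : ℝ) (hδ : 0 < δ) (hδ1 : δ ≤ 1 / 100) : ∀ᶠ a : ℕ in atTop, ∀ b : ℕ,
    b ≤ a ^ 2 → ∀ lam : Fin a → ℕ, Antitone lam → ∑ i, lam i = a * b →
    (a : ℝ) ^ (3 / 2 + 20 * δ) ≤ (below 2 lam : ℝ) →
    (∃ R : ℕ, R ≤ a ∧ (R : ℝ) ≤ (a : ℝ) ^ (2 * δ) ∧ (a : ℝ) ^ (3 / 2 + 6 * δ) ≤ (below R lam : ℝ) ∧
      (a : ℝ) ^ δ * (ex lam R : ℝ) ≤ below R lam) ∨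
    ∃ R1 r : ℕ, R1 ≤ a ∧ (R1 : ℝ) ≤ (a : ℝ) ^ (2 * δ) ∧ 3 ≤ r ∧ r ≤ R1 ∧
      (below R1 lam : ℝ) < (a : ℝ) ^ (3 / 2 + 6 * δ) ∧
      (a : ℝ) ^ (3 / 2 + 16 * δ) ≤ ((ex lam (r - 1) - ex lam r : ℕ) : ℝ) := by
  filter_upwards [ev_big δ hδ, eventually_ge_atTop 3] with a hbig ha b hb lam hlam hsum h2
  have ha3 : (3 : ℝ) ≤ a := by exact_mod_cast ha
  have ha1 : (1 : ℝ) ≤ a := by linarith
  have ha0 : (0 : ℝ) < a := by linarith
  have hlog : 1 ≤ Real.log a := by
    rw [Real.le_log_iff_exp_le ha0]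
    have := Real.exp_one_lt_d9
    linarith
  set X : ℝ := (a : ℝ) ^ δ with hX
  have hX2 : 2 ≤ X := by linarith
  have hX0 : 0 < X := by linarith
  have hpow : ∀ s : ℝ, ∀ n : ℕ, (a : ℝ) ^ (s + n * δ) = (a : ℝ) ^ s * X ^ n := by
    intro s n
    rw [Real.rpow_add ha0, mul_comm (n : ℝ) δ, Real.rpow_mul ha0.le, Real.rpow_natCast]
  have e2 : (a : ℝ) ^ (2 * δ) = X ^ 2 := by
    have := hpow 0 2
    rw [Real.rpow_zero, zero_add, one_mul] at this
    exact_mod_cast this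
  have e6 : (a : ℝ) ^ (3 / 2 + 6 * δ) = (a : ℝ) ^ (3 / 2 : ℝ) * X ^ 6 := by
    exact_mod_cast hpow (3 / 2) 6
  have e16 : (a : ℝ) ^ (3 / 2 + 16 * δ) = (a : ℝ) ^ (3 / 2 : ℝ) * X ^ 16 := by
    exact_mod_cast hpow (3 / 2) 16
  have e20 : (a : ℝ) ^ (3 / 2 + 20 * δ) = (a : ℝ) ^ (3 / 2 : ℝ) * X ^ 20 := by
    exact_mod_cast hpow (3 / 2) 20
  set A : ℝ := (a : ℝ) ^ (3 / 2 : ℝ) with hA
  have hA1 : 1 ≤ A := Real.one_le_rpow ha1 (by norm_num)
  have hX2a : X ^ 2 ≤ a := by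
    rw [← e2]
    calc (a : ℝ) ^ (2 * δ) ≤ (a : ℝ) ^ (1 : ℝ) := Real.rpow_le_rpow_of_exponent_le ha1 (by linarith)
      _ = a := Real.rpow_one _
  set B : ℕ := ⌊X ^ 2⌋₊ with hB
  have hBX : (B : ℝ) ≤ X ^ 2 := Nat.floor_le (by positivity)
  have hBX2 : X ^ 2 - 1 < B := by
    have := Nat.lt_floor_add_one (X ^ 2)
    linarith
  have hBa : B ≤ a := by
    have : (B : ℝ) ≤ a := hBX.trans hX2a
    exact_mod_cast this
  have hD0 : (below 0 lam : ℝ) ≤ (a : ℝ) ^ 3 := by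
    rw [below_zero, hsum]
    have : a * b ≤ a ^ 3 := by
      calc a * b ≤ a * a ^ 2 := Nat.mul_le_mul_left _ hb
        _ = a ^ 3 := by ring
    exact_mod_cast this
  rw [e20] at h2
  have hdet := split_det hlam (X := X) (θ := A * X ^ 6) (G := A * X ^ 16) (by linarith) B ?_ ?_ ?_
  · rcases hdet with ⟨R, hR, h3, h4⟩ | ⟨R1, r, h3, h4, h5, h6, h7⟩
    · left
      refine ⟨R, hR.trans hBa, ?_, ?_, h4⟩
      · rw [e2]
        have : (R : ℝ) ≤ B := by exact_mod_cast hR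
        linarith
      · rw [e6]
        exact h3
    · right
      refine ⟨R1, r, h5.trans hBa, ?_, h3, h4, ?_, ?_⟩
      · rw [e2]
        have : (R1 : ℝ) ≤ B := by exact_mod_cast h5
        linarith
      · rw [e6]
        exact h6
      · rw [e16]
        exact h7
  · -- the number of steps suffices
    have h3 : (1 - 1 / X) ^ B ≤ Real.exp (-(X - 1)) := by
      have h4 : 0 ≤ 1 - 1 / X := by
        rw [sub_nonneg, div_le_one hX0]
        linarith
      have h5 : 1 - 1 / X ≤ Real.exp (-(1 / X)) := by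
        have := Real.add_one_le_exp (-(1 / X))
        linarith
      calc (1 - 1 / X) ^ B ≤ (Real.exp (-(1 / X))) ^ B := pow_le_pow_left₀ h4 h5 _
        _ = Real.exp (-(B / X)) := by
            rw [← Real.exp_nat_mul]
            congr 1
            ring
        _ ≤ Real.exp (-(X - 1)) := by
            rw [Real.exp_le_exp]
            have h6 : X - 1 ≤ B / X := by
              rw [le_div_iff₀ hX0]
              nlinarith
            linarith
    have h4 : (a : ℝ) ^ 3 = Real.exp (3 * Real.log a) := by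
      rw [mul_comm, Real.exp_mul, Real.exp_log ha0]
      norm_cast
    have hX6 : 1 ≤ X ^ 6 := one_le_pow₀ (by linarith)
    have hD00 : (0 : ℝ) ≤ below 0 lam := Nat.cast_nonneg _
    calc (1 - 1 / X) ^ B * (below 0 lam : ℝ) ≤ Real.exp (-(X - 1)) * (a : ℝ) ^ 3 :=
          mul_le_mul h3 hD0 hD00 (Real.exp_pos _).le
      _ = Real.exp (3 * Real.log a - (X - 1)) := by
          rw [h4, ← Real.exp_add]
          congr 1
          ring
      _ < Real.exp 0 := by
          rw [Real.exp_lt_exp]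
          linarith
      _ = 1 := Real.exp_zero
      _ ≤ A * X ^ 6 := one_le_mul_of_one_le_of_one_le hA1 hX6
  · have h3 : A * X ^ 19 ≤ (below 2 lam : ℝ) / X := by
      rw [le_div_iff₀ hX0]
      calc A * X ^ 19 * X = A * X ^ 20 := by ring
        _ ≤ _ := h2
    refine le_trans ?_ h3
    have hA0 : 0 ≤ A := by linarith
    have h4 : A * X ^ 6 ≤ A * X ^ 18 := by
      apply mul_le_mul_of_nonneg_left _ hA0
      exact pow_le_pow_right₀ (by linarith) (by norm_num)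
    have h5 : A * X ^ 16 * B ≤ A * X ^ 18 := by
      calc A * X ^ 16 * B ≤ A * X ^ 16 * X ^ 2 := by gcongr
        _ = _ := by ring
    have h6 : A * X ^ 18 + A * X ^ 18 ≤ A * X ^ 19 := by
      calc A * X ^ 18 + A * X ^ 18 = A * X ^ 18 * 2 := by ring
        _ ≤ A * X ^ 18 * X := by gcongr
        _ = _ := by ring
    linarith
  · refine le_trans ?_ h2
    have hA0 : 0 ≤ A := by linarith
    apply mul_le_mul_of_nonneg_left _ hA0
    exact pow_le_pow_right₀ (by linarith) (by norm_num)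

/-- **The main theorem** from the two cases. -/
theorem f_stmt (h1 : Case1Stmt) (h2 : Case2Stmt) (hB : BigStmt) : FStmt := by
  intro ε hε
  set δ : ℝ := min (ε / 20) (1 / 100) with hδdef
  have hδ : 0 < δ := lt_min (by positivity) (by norm_num)
  have hδ1 : δ ≤ 1 / 100 := min_le_right _ _
  have hδε : 20 * δ ≤ ε := by
    have := min_le_left (ε / 20) (1 / 100)
    linarith
  filter_upwards [split δ hδ hδ1, h1 δ hδ hδ1, h2 δ hδ hδ1, eventually_ge_atTop 1] with a hs c1 c2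
    ha b hb lam hlam hsum hD
  by_cases hb2 : b ≤ a ^ 2
  · have ha1 : (1 : ℝ) ≤ a := by exact_mod_cast ha
    have ha0 : (0 : ℝ) < a := by linarith
    have hb' : (a : ℝ) ^ (1 + 9 * δ) ≤ b :=
      (Real.rpow_le_rpow_of_exponent_le ha1 (by linarith)).trans hb
    have hD' : (a : ℝ) ^ (3 / 2 + 20 * δ) ≤ (below 2 lam : ℝ) :=
      (Real.rpow_le_rpow_of_exponent_le ha1 (by linarith)).trans hD
    rcases hs b hb2 lam hlam hsum hD' with ⟨R, h3, h4, h5, h6⟩ | ⟨R1, r, h3, h4, h5, h6, h7, h8⟩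
    · rw [below_eq_low] at h5 h6
      refine c1 b hb' hb2 lam hlam hsum R h3 h4 h5 ?_
      rw [Real.rpow_neg ha0.le, ← div_eq_inv_mul, le_div_iff₀ (by positivity)]
      linarith
    · rw [below_eq_low] at h7
      exact c2 b hb' hb2 lam hlam hsum R1 r h3 h4 h5 h6 h7 h8
  · apply hB
    have h5 : (a - 1) ^ 2 ≤ a ^ 2 := Nat.pow_le_pow_left (Nat.sub_le a 1) 2
    omega

end Vale.Agent.P181.T7
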