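import Vale.Agent.P181.H699.CaseI
import Vale.Agent.P181.H403.CaseII
import Vale.Agent.P181.H463.CutRevStmt
import Vale.Agent.P181.H539.LB6
import Vale.Agent.P181.H539.UpStmt
import Vale.Agent.P181.H699.Use6
import Vale.Agent.P181.H463.Big
import Vale.Agent.P181.H328.Split
import Vale.Agent.P181.H530.Pad
import Vale.Agent.P181.H530.Zero
import Vale.Agent.P181.H412.Final7

set_option autoImplicit false

/-!
# P181, T7: the unconditional theorems
-/

namespace Vale.Agent.P181.T7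

open Vale.Agent.P181.T4 Vale.Agent.P181.H280

/-- The first case. -/
theorem case_one : CaseI := caseI H539.lb6 H699.use6 H539.up_stmt H463.cut_rev_stmt

/-- **(F)** -/
theorem f_done : FStmt := fStmt_of case_one H403.caseII H328.split_stmt H463.big_stmt

/-- Many cells below row two (all numbers of rows). -/
theorem many_below (ε : ℝ) (hε : 0 < ε) : ∃ a₀ : ℕ, ∀ a ≥ a₀, ∀ (b n : ℕ) (lam : Fin n → ℕ),
    (a : ℝ) ^ (1 + ε) ≤ b → (a : ℝ) ^ (3 / 2 + ε) ≤ (cells2 lam : ℕ) →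
      plethMult a b n lam ≤ plethMult b a n lam := by
  obtain ⟨a₀, h⟩ := result7 f_done H530.pad_stmt H530.zero_stmt ε hε
  exact ⟨a₀, fun a ha b n lam hb hD => h a ha b n lam (Or.inr ⟨hb, hD⟩)⟩

/-- **Foulkes' inequality for all partitions, all numbers of rows and all `a`, once
`b ≥ C a ^ (3 / 2 + ε)`.** -/
theorem three_halves (ε : ℝ) (hε : 0 < ε) : ∃ C : ℝ, ∀ a b : ℕ, C * (a : ℝ) ^ (3 / 2 + ε) ≤ b →
    ∀ (n : ℕ) (lam : Fin n → ℕ), plethMult a b n lam ≤ plethMult b a n lam := by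
  obtain ⟨a₀, h⟩ := result7 f_done H530.pad_stmt H530.zero_stmt ε hε
  refine ⟨(a₀ : ℝ) ^ 2 + 1, fun a b hb n lam => ?_⟩
  rcases Nat.lt_or_ge a a₀ with ha | ha
  · apply H463.big_stmt
    rcases Nat.eq_zero_or_pos a with h0 | h0
    · subst h0
      simp
    · have h1 : (1 : ℝ) ≤ (a : ℝ) ^ (3 / 2 + ε) :=
        Real.one_le_rpow (by exact_mod_cast h0) (by linarith)
      have h2 : (a₀ : ℝ) ^ 2 ≤ b := by nlinarith [sq_nonneg (a₀ : ℝ)]
      have h3 : a₀ ^ 2 ≤ b := by exact_mod_cast h2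
      exact (Nat.pow_le_pow_left (by omega) 2).trans h3
  · apply h a ha b n lam
    left
    have h1 : (0 : ℝ) ≤ (a : ℝ) ^ (3 / 2 + ε) := by positivity
    nlinarith [sq_nonneg (a₀ : ℝ)]

end Vale.Agent.P181.T7
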